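import Mathlib

/-!
A finite search tree for sequences whose third differences are divisible by `p`, inside a union of
intervals (one list of intervals for every class modulo `N`): they have third difference zero.
-/

set_option linter.all false

namespace Vale.Agent.P057.H955

/-- one visited term: wraps, lower and upper end (in units of `p / m`) -/
structure T4 where
  M : ℤ
  lo : ℤ
  hi : ℤ

/-- the four terms at distances `0 < x < y < z` from the last one are contradictory -/
def kd (m x y z : ℤ) (c b a d : T4) : Bool :=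
  decide (((y - x) * (z - x) * (z - y) * d.M + (z - x) * z * x * b.M -
      (z - y) * z * y * c.M - (y - x) * y * x * a.M) * m ≤
    (y - x) * (z - x) * (z - y) * d.lo + (z - x) * z * x * b.lo -
      (z - y) * z * y * c.hi - (y - x) * y * x * a.hi) ||
  decide ((y - x) * (z - x) * (z - y) * d.hi + (z - x) * z * x * b.hi -
      (z - y) * z * y * c.lo - (y - x) * y * x * a.lo ≤
    ((y - x) * (z - x) * (z - y) * d.M + (z - x) * z * x * b.M -
      (z - y) * z * y * c.M - (y - x) * y * x * a.M) * m)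

def k1 (m x y : ℤ) (c b d : T4) : ℤ → List T4 → Bool
  | _, [] => false
  | z, a :: l => kd m x y z c b a d || k1 m x y c b d (z + 1) l

def k2 (m x : ℤ) (c d : T4) : ℤ → List T4 → Bool
  | _, [] => false
  | y, b :: l => k1 m x y c b d (y + 1) l || k2 m x c d (y + 1) l

def k3 (m : ℤ) (d : T4) : ℤ → List T4 → Bool
  | _, [] => false
  | x, c :: l => k2 m x c d (x + 1) l || k3 m d (x + 1) l

def srch (N m q : ℤ) (wl : List ℤ) (iv : ℤ → List (ℤ × ℤ)) :
    ℕ → List T4 → ℤ → ℤ → ℤ → ℤ → ℤ → ℤ → Bool → Bool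
  | 0, _, _, _, _, _, _, _, nz => !nz
  | n + 1, l, c1, c2, c3, M1, M2, M3, nz =>
    wl.all fun w => (iv ((q * w + 3 * c1 - 3 * c2 + c3) % N)).all fun I =>
      k3 m ⟨w + 3 * M1 - 3 * M2 + M3, I.1, I.2⟩ 1 l ||
        srch N m q wl iv n (⟨w + 3 * M1 - 3 * M2 + M3, I.1, I.2⟩ :: l)
          ((q * w + 3 * c1 - 3 * c2 + c3) % N) c1 c2 (w + 3 * M1 - 3 * M2 + M3) M1 M2
          (nz || !decide (w = 0))

def chk (N m : ℕ) (q : ℤ) (wl : List ℤ) (iv : ℤ → List (ℤ × ℤ)) (K : ℕ) : Bool :=
  (List.range N).all fun c0 => (List.range N).all fun c1 => (List.range N).all fun c2 =>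
    (iv (c0 : ℤ)).all fun I0 => (iv (c1 : ℤ)).all fun I1 => (iv (c2 : ℤ)).all fun I2 =>
      srch N m q wl iv (K - 3) [⟨0, I2.1, I2.2⟩, ⟨0, I1.1, I1.2⟩, ⟨0, I0.1, I0.2⟩]
        c2 c1 c0 0 0 0 false

/-- the term `T` at the index `i` is realised -/
def Tm (A B C m p : ℤ) (i : ℤ) (T : T4) : Prop :=
  ∃ v : ℤ, T.lo * p < m * v ∧ m * v < T.hi * p ∧
    2 * (v - p * T.M) = 2 * A + 2 * B * i + C * (i * (i - 1))

def Lst (P : ℤ → T4 → Prop) : ℤ → List T4 → Prop
  | _, [] => True
  | i, T :: l => P i T ∧ Lst P (i - 1) l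

theorem kd_false {A B C m p t x y z : ℤ} (hp : 0 < p) (hx : 0 < x) (hxy : x < y) (hyz : y < z)
    {a b c d : T4} (hd : Tm A B C m p t d) (hc : Tm A B C m p (t - x) c)
    (hb : Tm A B C m p (t - y) b) (ha : Tm A B C m p (t - z) a) :
    kd m x y z c b a d = false := by
  obtain ⟨vd, ld, rd, ed⟩ := hd
  obtain ⟨vc, lc, rc, ec⟩ := hc
  obtain ⟨vb, lb, rb, eb⟩ := hb
  obtain ⟨va, la, ra, ea⟩ := ha
  have hwd : 0 < (y - x) * (z - x) * (z - y) :=
    mul_pos (mul_pos (by linarith) (by linarith)) (by linarith)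
  have hwb : 0 < (z - x) * z * x := mul_pos (mul_pos (by linarith) (by linarith)) hx
  have hwc : 0 < (z - y) * z * y := mul_pos (mul_pos (by linarith) (by linarith)) (by linarith)
  have hwa : 0 < (y - x) * y * x := mul_pos (mul_pos (by linarith) (by linarith)) hx
  have key2 : 2 * ((y - x) * (z - x) * (z - y) * vd + (z - x) * z * x * vb -
      (z - y) * z * y * vc - (y - x) * y * x * va) =
      2 * (p * ((y - x) * (z - x) * (z - y) * d.M + (z - x) * z * x * b.M -
      (z - y) * z * y * c.M - (y - x) * y * x * a.M)) := by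
    linear_combination ((y - x) * (z - x) * (z - y)) * ed + ((z - x) * z * x) * eb -
      ((z - y) * z * y) * ec - ((y - x) * y * x) * ea
  have key : (y - x) * (z - x) * (z - y) * vd + (z - x) * z * x * vb -
      (z - y) * z * y * vc - (y - x) * y * x * va =
      p * ((y - x) * (z - x) * (z - y) * d.M + (z - x) * z * x * b.M -
      (z - y) * z * y * c.M - (y - x) * y * x * a.M) := by linarith only [key2]
  have keym : (y - x) * (z - x) * (z - y) * (m * vd) + (z - x) * z * x * (m * vb) -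
      (z - y) * z * y * (m * vc) - (y - x) * y * x * (m * va) =
      (((y - x) * (z - x) * (z - y) * d.M + (z - x) * z * x * b.M -
      (z - y) * z * y * c.M - (y - x) * y * x * a.M) * m) * p := by
    linear_combination m * key
  have D1 := mul_lt_mul_of_pos_left ld hwd
  have D2 := mul_lt_mul_of_pos_left rd hwd
  have B1 := mul_lt_mul_of_pos_left lb hwb
  have B2 := mul_lt_mul_of_pos_left rb hwb
  have C1 := mul_lt_mul_of_pos_left lc hwc
  have C2 := mul_lt_mul_of_pos_left rc hwc
  have A1 := mul_lt_mul_of_pos_left la hwa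
  have A2 := mul_lt_mul_of_pos_left ra hwa
  unfold kd
  rw [Bool.or_eq_false_iff, decide_eq_false_iff_not, decide_eq_false_iff_not, not_le, not_le]
  constructor
  · apply lt_of_mul_lt_mul_right _ hp.le
    rw [← keym]
    linarith only [D1, B1, C2, A2]
  · apply lt_of_mul_lt_mul_right _ hp.le
    rw [← keym]
    linarith only [D2, B2, C1, A1]

theorem k1_false {A B C m p t x y : ℤ} (hp : 0 < p) (hx : 0 < x) (hxy : x < y)
    {b c d : T4} (hd : Tm A B C m p t d) (hc : Tm A B C m p (t - x) c)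
    (hb : Tm A B C m p (t - y) b) : ∀ (l : List T4) (z : ℤ), y < z →
      Lst (Tm A B C m p) (t - z) l → k1 m x y c b d z l = false := by
  intro l
  induction l with
  | nil => intro z _ _; rfl
  | cons a l ih =>
    intro z hz hl
    unfold k1
    rw [Bool.or_eq_false_iff]
    refine ⟨kd_false hp hx hxy hz hd hc hb hl.1, ih (z + 1) (by linarith) ?_⟩
    have e : t - (z + 1) = t - z - 1 := by ring
    rw [e]
    exact hl.2

theorem k2_false {A B C m p t x : ℤ} (hp : 0 < p) (hx : 0 < x)
    {c d : T4} (hd : Tm A B C m p t d) (hc : Tm A B C m p (t - x) c) :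
    ∀ (l : List T4) (y : ℤ), x < y →
      Lst (Tm A B C m p) (t - y) l → k2 m x c d y l = false := by
  intro l
  induction l with
  | nil => intro z _ _; rfl
  | cons b l ih =>
    intro y hy hl
    unfold k2
    have e : t - (y + 1) = t - y - 1 := by ring
    rw [Bool.or_eq_false_iff]
    refine ⟨k1_false hp hx hy hd hc hl.1 l (y + 1) (by linarith) ?_, ih (y + 1) (by linarith) ?_⟩
    · rw [e]; exact hl.2
    · rw [e]; exact hl.2

theorem k3_false {A B C m p t : ℤ} (hp : 0 < p)
    {d : T4} (hd : Tm A B C m p t d) :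
    ∀ (l : List T4) (x : ℤ), 0 < x →
      Lst (Tm A B C m p) (t - x) l → k3 m d x l = false := by
  intro l
  induction l with
  | nil => intro z _ _; rfl
  | cons c l ih =>
    intro x hx hl
    unfold k3
    have e : t - (x + 1) = t - x - 1 := by ring
    rw [Bool.or_eq_false_iff]
    refine ⟨k2_false hp hx hd hl.1 l (x + 1) (by linarith) ?_, ih (x + 1) (by linarith) ?_⟩
    · rw [e]; exact hl.2
    · rw [e]; exact hl.2

theorem srch_sound {N m q p A B C : ℤ} (hp : 0 < p) {wl : List ℤ}
    {iv : ℤ → List (ℤ × ℤ)} (K : ℕ) (u M w cl : ℕ → ℤ)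
    (hm : ∀ i, i < K → ∃ I ∈ iv (cl i), I.1 * p < m * u i ∧ m * u i < I.2 * p)
    (hcl : ∀ i, i + 3 < K →
      (q * w i + 3 * cl (i + 2) - 3 * cl (i + 1) + cl i) % N = cl (i + 3))
    (hM3 : ∀ i, M (i + 3) = w i + 3 * M (i + 2) - 3 * M (i + 1) + M i)
    (hw : ∀ i, i + 3 < K → w i ∈ wl)
    (hQ : ∀ i : ℕ, i < K → 2 * (u i - p * M i) = 2 * A + 2 * B * i + C * (i * (i - 1))) :
    ∀ (n s : ℕ) (l : List T4) (nz : Bool), s + 3 + n = K →
      Lst (Tm A B C m p) ((s : ℤ) + 2) l →
      srch N m q wl iv n l (cl (s + 2)) (cl (s + 1)) (cl s) (M (s + 2)) (M (s + 1)) (M s)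
        nz = true → nz = false ∧ ∀ i, s ≤ i → i + 3 < K → w i = 0 := by
  intro n
  induction n with
  | zero =>
    intro s l nz hs _ hd
    unfold srch at hd
    refine ⟨by simpa using hd, fun i hi hiK => by omega⟩
  | succ n ih =>
    intro s l nz hs hl hd
    unfold srch at hd
    rw [List.all_eq_true] at hd
    have h1 := hd (w s) (hw s (by omega))
    rw [hcl s (by omega), ← hM3 s] at h1
    rw [List.all_eq_true] at h1
    obtain ⟨I, hI, hI1, hI2⟩ := hm (s + 3) (by omega)
    have h2 := h1 I hI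
    have hT : Tm A B C m p ((s : ℤ) + 3) ⟨M (s + 3), I.1, I.2⟩ := by
      refine ⟨u (s + 3), hI1, hI2, ?_⟩
      have := hQ (s + 3) (by omega)
      push_cast at this
      exact this
    have hk := k3_false hp hT l 1 one_pos (by
      have e : (s : ℤ) + 3 - 1 = (s : ℤ) + 2 := by ring
      rw [e]
      exact hl)
    rw [hk, Bool.false_or] at h2
    have h3 := ih (s + 1) (⟨M (s + 3), I.1, I.2⟩ :: l) (nz || !decide (w s = 0)) (by omega) (by
      refine ⟨?_, ?_⟩
      · have e : (((s + 1 : ℕ) : ℤ) + 2) = (s : ℤ) + 3 := by push_cast; ring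
        rw [e]
        exact hT
      · have e : (((s + 1 : ℕ) : ℤ) + 2) - 1 = (s : ℤ) + 2 := by push_cast; ring
        rw [e]
        exact hl) h2
    obtain ⟨h4, h5⟩ := h3
    rw [Bool.or_eq_false_iff] at h4
    have hws : w s = 0 := by
      by_contra hne
      have := h4.2
      rw [decide_eq_false hne] at this
      simp at this
    refine ⟨h4.1, fun i hi hiK => ?_⟩
    rcases Nat.eq_or_lt_of_le hi with rfl | hlt
    · exact hws
    · exact h5 i hlt hiK

def iv8 (r : ℤ) : List (ℤ × ℤ) := if r = 0 then [(0, 4)] else [(0, 3)]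
def iv9 (r : ℤ) : List (ℤ × ℤ) :=
  if r = 0 then [(4, 13)] else if r = 1 then [(5, 9)] else if r = 2 then [(4, 8)]
  else if r = 3 then [(0, 10)] else []

theorem chk8 : chk 4 12 1 [-1, 0, 1] iv8 8 = true := by decide +kernel
theorem chk9 : chk 4 24 1 [-2, -1, 0, 1, 2] iv9 9 = true := by decide +kernel

def iv9' (r : ℤ) : List (ℤ × ℤ) :=
  if r = 0 then [(12, 23)] else if r = 1 then [(9, 20)] else if r = 2 then [(0, 24)]
  else if r = 3 then [(8, 32)] else []

theorem chk9' : chk 4 60 1 [-2, -1, 0, 1, 2] iv9' 9 = true := by decide +kernel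

end Vale.Agent.P057.H955
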