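import Vale.Agent.P057.H466.Par
import Vale.Agent.P057.H955.Tree2

/-!
Second level blocks (degree two): density `13/48` for `k ≥ 8` and `9/32` for `k ≥ 9`
in place of `1/4`.
-/

set_option linter.all false

open Finset

namespace Vale.Agent.P057.H955

open Vale.Agent.P057.Lower

open Vale.Agent.P057.H466 (U mem_U card_U Good total cnt)

theorem diff_three (u : ℕ → ℤ) (j : ℕ) :
    (fwdDiff 1)^[2 + 1] u j = u (j + 3) - 3 * u (j + 2) + 3 * u (j + 1) - u j := by
  have h : (fwdDiff 1)^[2 + 1] u j = (fwdDiff 1)^[1 + 1] u (j + 1) - (fwdDiff 1)^[1 + 1] u j :=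
    fwdDiff_succ_apply _ _ _
  rw [h, diff_two, diff_two]
  have e1 : j + 1 + 1 = j + 2 := rfl
  have e2 : j + 1 + 2 = j + 3 := rfl
  rw [e1, e2]
  ring

/-- the sequence with given third differences, zero at the first three places -/
def tri (w : ℕ → ℤ) : ℕ → ℤ × ℤ × ℤ
  | 0 => (0, 0, 0)
  | n + 1 => ((tri w n).2.1, (tri w n).2.2,
      w n + 3 * (tri w n).2.2 - 3 * (tri w n).2.1 + (tri w n).1)

theorem tri_rec (w : ℕ → ℤ) (i : ℕ) :
    (tri w (i + 3)).1 = w i + 3 * (tri w (i + 2)).1 - 3 * (tri w (i + 1)).1 + (tri w i).1 := rfl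

theorem long2 {N m : ℕ} {iv : ℤ → List (ℤ × ℤ)} {K : ℕ} (hN : 0 < N) (hm0 : 0 < m) (hK : 3 ≤ K)
    {W H : ℤ} {wl : List ℤ} (hHW : 4 * H ≤ (W + 1) * m) (hwl : ∀ v, -W ≤ v → v ≤ W → v ∈ wl)
    (hiv : ∀ r, ∀ I ∈ iv r, 0 ≤ I.1 ∧ I.2 ≤ H) (hchk : chk N m 1 wl iv K = true)
    {p : ℕ} (hp : 0 < p) {q : ℤ} (hq : q * p ≡ 1 [ZMOD (N : ℤ)]) {u : ℕ → ℤ}
    (hu : ∀ j < K, u j ∈ U N m (fun r => iv ((q * r) % N)) p)
    (hd : ∀ j, j + 3 < K → (p : ℤ) ∣ u (j + 3) - 3 * u (j + 2) + 3 * u (j + 1) - u j) :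
    ∀ j, j + 3 < K → u (j + 3) - 3 * u (j + 2) + 3 * u (j + 1) - u j = 0 := by
  have hpz : (0 : ℤ) < p := by exact_mod_cast hp
  have hNz : (0 : ℤ) < N := by exact_mod_cast hN
  have hmz : (0 : ℤ) < m := by exact_mod_cast hm0
  set cl : ℕ → ℤ := fun i => (q * u i) % N with hcl
  set w : ℕ → ℤ := fun i => (u (i + 3) - 3 * u (i + 2) + 3 * u (i + 1) - u i) / p with hwdef
  have hwp : ∀ i, i + 3 < K → u (i + 3) - 3 * u (i + 2) + 3 * u (i + 1) - u i = p * w i := by
    intro i hi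
    exact (Int.mul_ediv_cancel' (hd i hi)).symm
  have hmem : ∀ i, i < K → ∃ I ∈ iv (cl i), I.1 * p < m * u i ∧ m * u i < I.2 * p := by
    intro i hi
    obtain ⟨I, hI, hI'⟩ := (mem_U (hu i hi)).2.2
    refine ⟨I, ?_, hI'⟩
    have e : (q * (u i % N)) % (N : ℤ) = cl i :=
      Int.ModEq.mul_left q (Int.mod_modEq (u i) N)
    rw [← e]
    exact hI
  have hbd : ∀ i, i < K → 0 < m * u i ∧ m * u i < H * p := by
    intro i hi
    obtain ⟨I, hI, h1, h2⟩ := hmem i hi
    obtain ⟨h3, h4⟩ := hiv _ I hI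
    have h5 : 0 ≤ I.1 * (p : ℤ) := mul_nonneg h3 hpz.le
    have h6 : I.2 * (p : ℤ) ≤ H * p := mul_le_mul_of_nonneg_right h4 hpz.le
    exact ⟨by linarith only [h1, h5], by linarith only [h2, h6]⟩
  have hw : ∀ i, i + 3 < K → w i ∈ wl := by
    intro i hi
    have b0 := hbd i (by omega)
    have b1 := hbd (i + 1) (by omega)
    have b2 := hbd (i + 2) (by omega)
    have b3 := hbd (i + 3) hi
    have e := hwp i hi
    have e2 : (m : ℤ) * u (i + 3) - 3 * (m * u (i + 2)) + 3 * (m * u (i + 1)) - m * u i =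
        (w i * m) * p := by
      linear_combination (m : ℤ) * e
    have hHW' : 4 * H * p ≤ ((W + 1) * m) * p := mul_le_mul_of_nonneg_right hHW hpz.le
    have h1 : (w i * m) * p < ((W + 1) * m) * p := by
      linarith only [e2, b0.1, b1.2, b2.1, b3.2, hHW']
    have h2 : (-(W + 1) * m) * p < (w i * m) * p := by
      linarith only [e2, b0.2, b1.1, b2.2, b3.1, hHW']
    have h3 := lt_of_mul_lt_mul_right (lt_of_mul_lt_mul_right h1 hpz.le) hmz.le
    have h4 := lt_of_mul_lt_mul_right (lt_of_mul_lt_mul_right h2 hpz.le) hmz.le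
    exact hwl _ (by omega) (by omega)
  have hrec : ∀ i, i + 3 < K →
      (1 * w i + 3 * cl (i + 2) - 3 * cl (i + 1) + cl i) % N = cl (i + 3) := by
    intro i hi
    have e : q * u (i + 3) = (q * p) * w i + 3 * (q * u (i + 2)) - 3 * (q * u (i + 1)) +
        q * u i := by
      linear_combination q * hwp i hi
    show _ = (q * u (i + 3)) % N
    rw [e]
    exact (((hq.symm.mul_right _).add ((Int.mod_modEq _ _).mul_left _)).sub
      ((Int.mod_modEq _ _).mul_left _)).add (Int.mod_modEq _ _)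
  have hQ : ∀ i : ℕ, i < K → 2 * (u i - p * (tri w i).1) = 2 * u 0 + 2 * (u 1 - u 0) * i +
      (u 2 - 2 * u 1 + u 0) * (i * (i - 1)) := by
    intro i
    induction i using Nat.strong_induction_on with
    | _ i ih =>
      intro hi
      match i, ih, hi with
      | 0, _, _ => simp [tri]
      | 1, _, _ =>
        simp [tri]
        ring
      | 2, _, _ =>
        simp [tri]
        ring
      | i + 3, ih, hi =>
        have h0 := ih i (by omega) (by omega)
        have h1 := ih (i + 1) (by omega) (by omega)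
        have h2 := ih (i + 2) (by omega) (by omega)
        have e := hwp i hi
        rw [tri_rec]
        push_cast at h1 h2 ⊢
        linear_combination 2 * e + h0 - 3 * h1 + 3 * h2
  unfold chk at hchk
  rw [List.all_eq_true] at hchk
  have hr : ∀ i, 0 ≤ cl i ∧ cl i < N := fun i =>
    ⟨Int.emod_nonneg _ hNz.ne', Int.emod_lt_of_pos _ hNz⟩
  have c0 := hchk (cl 0).toNat (List.mem_range.2 (by have := hr 0; omega))
  rw [List.all_eq_true] at c0
  have c1 := c0 (cl 1).toNat (List.mem_range.2 (by have := hr 1; omega))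
  rw [List.all_eq_true] at c1
  have c2 := c1 (cl 2).toNat (List.mem_range.2 (by have := hr 2; omega))
  rw [Int.toNat_of_nonneg (hr 0).1, Int.toNat_of_nonneg (hr 1).1,
    Int.toNat_of_nonneg (hr 2).1, List.all_eq_true] at c2
  obtain ⟨I0, hI0, a0, b0⟩ := hmem 0 (by omega)
  obtain ⟨I1, hI1, a1, b1⟩ := hmem 1 (by omega)
  obtain ⟨I2, hI2, a2, b2⟩ := hmem 2 (by omega)
  have c3 := c2 I0 hI0
  rw [List.all_eq_true] at c3
  have c4 := c3 I1 hI1
  rw [List.all_eq_true] at c4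
  have c5 := c4 I2 hI2
  have hfin := srch_sound (N := (N : ℤ)) (m := (m : ℤ)) (q := 1) (p := (p : ℤ)) (A := u 0)
    (B := u 1 - u 0) (C := u 2 - 2 * u 1 + u 0) hpz (wl := wl) (iv := iv) K u
    (fun i => (tri w i).1) w cl hmem hrec (fun i => tri_rec w i) hw hQ (K - 3) 0
    [⟨0, I2.1, I2.2⟩, ⟨0, I1.1, I1.2⟩, ⟨0, I0.1, I0.2⟩] false (by omega) (by
      refine ⟨⟨u 2, a2, b2, ?_⟩, ⟨u 1, a1, b1, ?_⟩, ⟨u 0, a0, b0, ?_⟩, trivial⟩
      · push_cast; ring
      · push_cast; ring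
      · push_cast; ring) c5
  intro j hj
  rw [hwp j hj, hfin.2 j (by omega) hj, mul_zero]

theorem block2_of_chk {N m : ℕ} {iv : ℤ → List (ℤ × ℤ)} {K : ℕ} (hN : 0 < N) (hm0 : 0 < m)
    (hK : 4 ≤ K) {W H : ℤ} {wl : List ℤ} (hHW : 4 * H ≤ (W + 1) * m)
    (hwl : ∀ v, -W ≤ v → v ≤ W → v ∈ wl)
    (hiv : ∀ r, ∀ I ∈ iv r, 0 ≤ I.1 ∧ I.2 ≤ H) (hchk : chk N m 1 wl iv K = true)
    {p : ℕ} (hp : 0 < p) {q : ℤ} (hq : q * p ≡ 1 [ZMOD (N : ℤ)]) (k : ℕ) (hk : K ≤ k) :
    Block k 2 p (U N m (fun r => iv ((q * r) % N)) p) := by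
  refine ⟨fun u hu v hv h => ?_, fun u hu hdvd j hj => ?_⟩
  · have a := mem_U hu
    have b := mem_U hv
    obtain ⟨t, ht⟩ := h
    have hpz : (0 : ℤ) < p := by exact_mod_cast hp
    have t1 : t < 1 := by
      by_contra hc
      have : (p : ℤ) * 1 ≤ p * t := mul_le_mul_of_nonneg_left (by omega) hpz.le
      omega
    have t2 : -1 < t := by
      by_contra hc
      have : (p : ℤ) * t ≤ p * (-1) := mul_le_mul_of_nonneg_left (by omega) hpz.le
      omega
    have : t = 0 := by omega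
    subst this
    omega
  · have hd : ∀ j, j + 3 < k → (p : ℤ) ∣ u (j + 3) - 3 * u (j + 2) + 3 * u (j + 1) - u j := by
      intro j hj
      have := hdvd j (by omega)
      rwa [diff_three] at this
    rw [diff_three]
    obtain ⟨s, hs1, hs2, hs3⟩ : ∃ s, s ≤ j ∧ j - s + 3 < K ∧ s + K ≤ k :=
      ⟨min j (k - K), by omega, by omega, by omega⟩
    have := long2 (u := fun i => u (s + i)) hN hm0 (by omega) hHW hwl hiv hchk hp hq
      (fun i hi => hu (s + i) (by omega))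
      (fun i hi => by
        have := hd (s + i) (by omega)
        simpa only [add_assoc] using this) (j - s) hs2
    have e1 : s + (j - s) = j := by omega
    have e2 : s + (j - s + 1) = j + 1 := by omega
    have e3 : s + (j - s + 2) = j + 2 := by omega
    have e4 : s + (j - s + 3) = j + 3 := by omega
    simpa only [e1, e2, e3, e4] using this

/-- the cost of the second level from a check modulo `4` -/
theorem cost2_of_chk {m : ℕ} {iv : ℤ → List (ℤ × ℤ)} {K : ℕ} (hm0 : 0 < m)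
    (hK : 4 ≤ K) {W H : ℤ} {wl : List ℤ} (hHW : 4 * H ≤ (W + 1) * m)
    (hwl : ∀ v, -W ≤ v → v ≤ W → v ∈ wl)
    (hiv : ∀ r, ∀ I ∈ iv r, 0 ≤ I.1 ∧ I.2 ≤ H) (hchk : chk 4 m 1 wl iv K = true) (T : ℤ)
    (hg1 : Good 4 m (fun r => iv ((1 * r) % ((4 : ℕ) : ℤ))))
    (hg3 : Good 4 m (fun r => iv ((3 * r) % ((4 : ℕ) : ℤ))))
    (ht1 : total 4 (fun r => iv ((1 * r) % ((4 : ℕ) : ℤ))) = T)
    (ht3 : total 4 (fun r => iv ((3 * r) % ((4 : ℕ) : ℤ))) = T)
    (δ : ℝ) (hδ : 0 < δ) (hδ' : δ = (T : ℝ) / (m * 4)) (k : ℕ) (hk : K ≤ k) :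
    Cost k 2 (Real.log (1 / δ)) := by
  intro η hη
  have hlt : Real.exp (-η) < 1 := Real.exp_lt_one_iff.2 (by linarith only [hη])
  set c1 : ℕ := cnt 4 (fun r => iv ((1 * r) % ((4 : ℕ) : ℤ))) with hc1
  set c3 : ℕ := cnt 4 (fun r => iv ((3 * r) % ((4 : ℕ) : ℤ))) with hc3
  obtain ⟨m0, hm0'⟩ := eventually_div_le (3 * ((c1 : ℝ) + c3)) (δ * (1 - Real.exp (-η)))
    (mul_pos hδ (by linarith only [hlt]))
  refine ⟨max m0 3, fun p hp hpp => ?_⟩
  have hp3 : 3 ≤ p := le_trans (le_max_right _ _) hp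
  have hpm : m0 ≤ p := le_trans (le_max_left _ _) hp
  have hp0 : 0 < p := by omega
  have hodd : p % 2 = 1 := hpp.eq_two_or_odd.resolve_left (by omega)
  have hpR : (0 : ℝ) < p := by exact_mod_cast hp0
  have h4 := hm0' p hpm
  rw [div_le_iff₀ hpR] at h4
  have h5 : Real.exp (-(Real.log (1 / δ) + η)) = δ * Real.exp (-η) := by
    rw [neg_add, Real.exp_add, Real.exp_neg (Real.log _), Real.exp_log (by positivity)]
    field_simp
  have h6 : (T : ℝ) * p / (m * (4 : ℕ)) = δ * p := by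
    rw [hδ']
    push_cast
    ring
  rcases (by omega : p % 4 = 1 ∨ p % 4 = 3) with h | h
  · have hq : (1 : ℤ) * p ≡ 1 [ZMOD ((4 : ℕ) : ℤ)] := by
      show (1 * (p : ℤ)) % ((4 : ℕ) : ℤ) = 1 % ((4 : ℕ) : ℤ)
      omega
    refine ⟨_, block2_of_chk (by norm_num) hm0 hK hHW hwl hiv hchk hp0 hq k hk,
      fun u hu => ?_, ?_⟩
    · have := mem_U hu
      rw [abs_le]
      constructor <;> linarith
    · have h1 := card_U (by norm_num) hm0 hg1 p
      rw [ht1, h6] at h1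
      rw [h5, le_div_iff₀ hpR]
      have : (0 : ℝ) ≤ c3 := by positivity
      nlinarith only [h1, h4, this]
  · have hq : (3 : ℤ) * p ≡ 1 [ZMOD ((4 : ℕ) : ℤ)] := by
      show (3 * (p : ℤ)) % ((4 : ℕ) : ℤ) = 1 % ((4 : ℕ) : ℤ)
      omega
    refine ⟨_, block2_of_chk (by norm_num) hm0 hK hHW hwl hiv hchk hp0 hq k hk,
      fun u hu => ?_, ?_⟩
    · have := mem_U hu
      rw [abs_le]
      constructor <;> linarith
    · have h1 := card_U (by norm_num) hm0 hg3 p
      rw [ht3, h6] at h1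
      rw [h5, le_div_iff₀ hpR]
      have : (0 : ℝ) ≤ c1 := by positivity
      nlinarith only [h1, h4, this]

theorem iv8_mem (r : ℤ) : ∀ I ∈ iv8 r, 0 ≤ I.1 ∧ I.2 ≤ 4 := by
  intro I hI
  unfold iv8 at hI
  split_ifs at hI <;> rw [List.mem_singleton] at hI <;> subst hI <;> norm_num

theorem iv9_mem (r : ℤ) : ∀ I ∈ iv9 r, 0 ≤ I.1 ∧ I.2 ≤ 13 := by
  intro I hI
  unfold iv9 at hI
  split_ifs at hI
  · rw [List.mem_singleton] at hI; subst hI; norm_num
  · rw [List.mem_singleton] at hI; subst hI; norm_num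
  · rw [List.mem_singleton] at hI; subst hI; norm_num
  · rw [List.mem_singleton] at hI; subst hI; norm_num
  · simp at hI

theorem good8a : Good 4 12 (fun r => iv8 ((1 * r) % ((4 : ℕ) : ℤ))) := by
  unfold Good; decide +kernel
theorem good8b : Good 4 12 (fun r => iv8 ((3 * r) % ((4 : ℕ) : ℤ))) := by
  unfold Good; decide +kernel
theorem good9a : Good 4 24 (fun r => iv9 ((1 * r) % ((4 : ℕ) : ℤ))) := by
  unfold Good; decide +kernel
theorem good9b : Good 4 24 (fun r => iv9 ((3 * r) % ((4 : ℕ) : ℤ))) := by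
  unfold Good; decide +kernel

/-- degree two, density `13 / 48` for `k ≥ 8` (an interval gives `1 / 4`) -/
theorem cost8_two (k : ℕ) (hk : 8 ≤ k) : Cost k 2 (Real.log (48 / 13)) := by
  have := cost2_of_chk (m := 12) (iv := iv8) (K := 8) (W := 1) (H := 4) (wl := [-1, 0, 1])
    (by norm_num) (by norm_num) (by norm_num) (by
      intro v h1 h2
      have : v = -1 ∨ v = 0 ∨ v = 1 := by omega
      rcases this with rfl | rfl | rfl <;> simp) iv8_mem chk8 13 good8a good8b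
    (by decide +kernel) (by decide +kernel) (13 / 48) (by norm_num) (by norm_num) k hk
  rwa [show (1 : ℝ) / (13 / 48) = 48 / 13 by norm_num] at this

/-- degree two, density `9 / 32` for `k ≥ 9` -/
theorem cost9_two (k : ℕ) (hk : 9 ≤ k) : Cost k 2 (Real.log (32 / 9)) := by
  have := cost2_of_chk (m := 24) (iv := iv9) (K := 9) (W := 2) (H := 13)
    (wl := [-2, -1, 0, 1, 2])
    (by norm_num) (by norm_num) (by norm_num) (by
      intro v h1 h2
      have : v = -2 ∨ v = -1 ∨ v = 0 ∨ v = 1 ∨ v = 2 := by omega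
      rcases this with rfl | rfl | rfl | rfl | rfl <;> simp) iv9_mem chk9 27 good9a good9b
    (by decide +kernel) (by decide +kernel) (9 / 32) (by norm_num) (by norm_num) k hk
  rwa [show (1 : ℝ) / (9 / 32) = 32 / 9 by norm_num] at this

theorem iv9'_mem (r : ℤ) : ∀ I ∈ iv9' r, 0 ≤ I.1 ∧ I.2 ≤ 32 := by
  intro I hI
  unfold iv9' at hI
  split_ifs at hI
  · rw [List.mem_singleton] at hI; subst hI; norm_num
  · rw [List.mem_singleton] at hI; subst hI; norm_num
  · rw [List.mem_singleton] at hI; subst hI; norm_num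
  · rw [List.mem_singleton] at hI; subst hI; norm_num
  · simp at hI

theorem good9a' : Good 4 60 (fun r => iv9' ((1 * r) % ((4 : ℕ) : ℤ))) := by
  unfold Good; decide +kernel
theorem good9b' : Good 4 60 (fun r => iv9' ((3 * r) % ((4 : ℕ) : ℤ))) := by
  unfold Good; decide +kernel

/-- degree two, density `7 / 24` for `k ≥ 9` -/
theorem cost9_two' (k : ℕ) (hk : 9 ≤ k) : Cost k 2 (Real.log (24 / 7)) := by
  have := cost2_of_chk (m := 60) (iv := iv9') (K := 9) (W := 2) (H := 32)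
    (wl := [-2, -1, 0, 1, 2])
    (by norm_num) (by norm_num) (by norm_num) (by
      intro v h1 h2
      have : v = -2 ∨ v = -1 ∨ v = 0 ∨ v = 1 ∨ v = 2 := by omega
      rcases this with rfl | rfl | rfl | rfl | rfl <;> simp) iv9'_mem chk9' 70 good9a' good9b'
    (by decide +kernel) (by decide +kernel) (7 / 24) (by norm_num) (by norm_num) k hk
  rwa [show (1 : ℝ) / (7 / 24) = 24 / 7 by norm_num] at this

end Vale.Agent.P057.H955

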